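import Mathlib
import Vale.Agent.Lib.P137.helper41.Defs

/-!
# P137: pointwise bound for the centered maximal function of a radially nonincreasing function
(pool piece D)
-/

namespace Vale.Agent.Lib.P137.H16

open Vale.Agent.Lib.P137 MeasureTheory Metric
open scoped ENNReal

theorem cmax_le_of {d : ℕ} (hd : 1 ≤ d) (F : ℝ → ℝ≥0∞) (hF : Antitone F)
    (hanti : ∀ s t : ℝ, 0 < s → s ≤ t → cavg d F t ≤ cavg d F s) (x : E d) (hx : x ≠ 0) :
    cmax (fun z : E d => F ‖z‖) x ≤ F (1 / 2 * ‖x‖) + 3 ^ d * cavg d F (3 / 2 * ‖x‖) := by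
  have _hd1 : 1 ≤ d := hd
  have hxpos : 0 < ‖x‖ := norm_pos_iff.mpr hx
  unfold cmax
  refine iSup₂_le fun r hr => ?_
  have hVpos : 0 < volume (ball x r) := measure_ball_pos volume x hr
  have hVtop : volume (ball x r) ≠ ⊤ := measure_ball_lt_top.ne
  rcases le_or_gt r (1 / 2 * ‖x‖) with hcase | hcase
  · have h1 : ∫⁻ z in ball x r, F ‖z‖ ≤ F (1 / 2 * ‖x‖) * volume (ball x r) := by
      calc ∫⁻ z in ball x r, F ‖z‖ ≤ ∫⁻ _z in ball x r, F (1 / 2 * ‖x‖) := by
            refine setLIntegral_mono' measurableSet_ball fun z hz => hF ?_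
            rw [mem_ball, dist_eq_norm] at hz
            have h2 : ‖x‖ ≤ ‖z‖ + ‖z - x‖ := by
              have h3 := norm_sub_le z (z - x)
              simpa using h3
            linarith
        _ = F (1 / 2 * ‖x‖) * volume (ball x r) := setLIntegral_const _ _
    exact (ENNReal.div_le_of_le_mul h1).trans le_self_add
  · have h3r : 0 < 3 * r := by linarith
    have hsub : ball x r ⊆ ball (0 : E d) (3 * r) := by
      intro z hz
      rw [mem_ball, dist_eq_norm] at hz
      rw [mem_ball, dist_zero_right]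
      have h2 : ‖z‖ ≤ ‖z - x‖ + ‖x‖ := by
        have h3 := norm_add_le (z - x) x
        simpa using h3
      linarith
    have hI : ∫⁻ z in ball x r, F ‖z‖ ≤ ∫⁻ z in ball (0 : E d) (3 * r), F ‖z‖ :=
      lintegral_mono_set hsub
    have h3pow : ENNReal.ofReal ((3 : ℝ) ^ d) = 3 ^ d := by
      rw [ENNReal.ofReal_pow (by norm_num)]
      norm_num
    have hvol : volume (ball (0 : E d) (3 * r)) = 3 ^ d * volume (ball x r) := by
      rw [Measure.addHaar_ball_of_pos volume (0 : E d) h3r,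
        Measure.addHaar_ball_of_pos volume x hr, finrank_euclideanSpace_fin, mul_pow,
        ENNReal.ofReal_mul (by positivity), h3pow, mul_assoc]
    have h3 : (3 : ℝ≥0∞) ^ d ≠ 0 := by positivity
    have h3' : (3 : ℝ≥0∞) ^ d ≠ ⊤ := by simp
    calc (∫⁻ z in ball x r, F ‖z‖) / volume (ball x r)
        ≤ (∫⁻ z in ball (0 : E d) (3 * r), F ‖z‖) / volume (ball x r) :=
          ENNReal.div_le_div_right hI _
      _ = 3 ^ d * cavg d F (3 * r) := by
          unfold cavg
          rw [hvol, ← mul_div_assoc, ENNReal.mul_div_mul_left _ _ h3 h3']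
      _ ≤ 3 ^ d * cavg d F (3 / 2 * ‖x‖) := by
          gcongr
          exact hanti _ _ (by positivity) (by linarith)
      _ ≤ F (1 / 2 * ‖x‖) + 3 ^ d * cavg d F (3 / 2 * ‖x‖) := le_add_self

end Vale.Agent.Lib.P137.H16
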